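import Mathlib

/-!
Plan B for row 115: the dynamics.  Fibre `V p = Σ j, (ZMod (p j))²`, five generators
`T1, T2, e1, e2` (affine maps on each level) and the involution `t = θ`.
-/

set_option autoImplicit false

namespace Crest.Agent.R115.B

/-- level `j` of the fibre -/
abbrev Lv (p : ℕ → ℕ) (j : ℕ) : Type := ZMod (p j) × ZMod (p j)

/-- the fibre -/
abbrev V (p : ℕ → ℕ) : Type := Σ j : ℕ, Lv p j

/-- the five generators -/
inductive Gen : Type
  | T1 | T2 | e1 | e2 | t
  deriving DecidableEq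

instance : Fintype Gen := ⟨{Gen.T1, Gen.T2, Gen.e1, Gen.e2, Gen.t}, fun x => by cases x <;> simp⟩

section Levels

variable (p : ℕ → ℕ)

/-- `T1` on a level -/
def lT1 (j : ℕ) : Equiv.Perm (Lv p j) where
  toFun v := (v.1 + v.2, v.2)
  invFun v := (v.1 - v.2, v.2)
  left_inv v := by ext <;> simp
  right_inv v := by ext <;> simp

/-- `T2` on a level -/
def lT2 (j : ℕ) : Equiv.Perm (Lv p j) where
  toFun v := (v.1, v.2 + v.1)
  invFun v := (v.1, v.2 - v.1)
  left_inv v := by ext <;> simp
  right_inv v := by ext <;> simp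

/-- `e1` on a level -/
def le1 (j : ℕ) : Equiv.Perm (Lv p j) where
  toFun v := (v.1 + 1, v.2)
  invFun v := (v.1 - 1, v.2)
  left_inv v := by ext <;> simp
  right_inv v := by ext <;> simp

/-- `e2` on a level -/
def le2 (j : ℕ) : Equiv.Perm (Lv p j) where
  toFun v := (v.1, v.2 + 1)
  invFun v := (v.1, v.2 - 1)
  left_inv v := by ext <;> simp
  right_inv v := by ext <;> simp

/-- points which go up -/
def IsGo (j : ℕ) (v : Lv p j) : Prop := p j ≤ 2 * v.1.val

/-- points which come from below -/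
def IsLow : (j : ℕ) → Lv p j → Prop
  | 0, _ => False
  | i + 1, v => v.1.val < p i ∧ v.2.val < p i ∧ p i ≤ 2 * v.1.val

/-- move up one level -/
def up (j : ℕ) (v : Lv p j) : Lv p (j + 1) := ((v.1.val : ZMod (p (j + 1))), (v.2.val : ZMod (p (j + 1))))

/-- move down one level -/
def down (i : ℕ) (v : Lv p (i + 1)) : Lv p i := ((v.1.val : ZMod (p i)), (v.2.val : ZMod (p i)))

instance (j : ℕ) (v : Lv p j) : Decidable (IsGo p j v) := by
  unfold IsGo; infer_instance

instance : (j : ℕ) → (v : Lv p j) → Decidable (IsLow p j v)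
  | 0, _ => isFalse (fun h => h)
  | i + 1, v => by unfold IsLow; infer_instance

/-- the downward part of `θ` -/
def thDown : V p → V p
  | ⟨0, v⟩ => ⟨0, v⟩
  | ⟨i + 1, v⟩ => if IsLow p (i + 1) v then ⟨i, down p i v⟩ else ⟨i + 1, v⟩

/-- the involution `θ` -/
def th (x : V p) : V p := if IsGo p x.1 x.2 then ⟨x.1 + 1, up p x.1 x.2⟩ else thDown p x

end Levels

section Theta

variable (p : ℕ → ℕ) [hp : ∀ j, Fact (p j).Prime]

lemma pos_p (j : ℕ) : 0 < p j := (hp j).out.pos

lemma val_cast_of_lt {n m : ℕ} (h : m < n) : ((m : ZMod n)).val = m := ZMod.val_cast_of_lt h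

variable (h2 : ∀ j, 2 * p j ≤ p (j + 1))
include h2

lemma up_val (j : ℕ) (v : Lv p j) : (up p j v).1.val = v.1.val ∧ (up p j v).2.val = v.2.val := by
  have h1 := ZMod.val_lt v.1
  have h3 := ZMod.val_lt v.2
  have h4 := h2 j
  have h5 := pos_p p j
  constructor
  · exact val_cast_of_lt (by omega)
  · exact val_cast_of_lt (by omega)

lemma up_low (j : ℕ) (v : Lv p j) (h : IsGo p j v) : IsLow p (j + 1) (up p j v) := by
  obtain ⟨a, b⟩ := up_val p h2 j v
  change (up p j v).1.val < p j ∧ (up p j v).2.val < p j ∧ p j ≤ 2 * (up p j v).1.val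
  rw [a, b]
  exact ⟨ZMod.val_lt v.1, ZMod.val_lt v.2, h⟩

lemma up_not_go (j : ℕ) (v : Lv p j) : ¬ IsGo p (j + 1) (up p j v) := by
  obtain ⟨a, b⟩ := up_val p h2 j v
  unfold IsGo
  rw [a]
  have h1 := ZMod.val_lt v.1
  have h4 := h2 j
  omega

omit h2 in
lemma down_val (i : ℕ) (v : Lv p (i + 1)) (h : IsLow p (i + 1) v) :
    (down p i v).1.val = v.1.val ∧ (down p i v).2.val = v.2.val :=
  ⟨val_cast_of_lt h.1, val_cast_of_lt h.2.1⟩

omit h2 in
lemma down_go (i : ℕ) (v : Lv p (i + 1)) (h : IsLow p (i + 1) v) : IsGo p i (down p i v) := by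
  unfold IsGo
  rw [(down_val p i v h).1]
  exact h.2.2

lemma low_not_go (j : ℕ) (v : Lv p j) (h : IsLow p j v) : ¬ IsGo p j v := by
  cases j with
  | zero => exact h.elim
  | succ i =>
    unfold IsGo
    have h1 := h.1
    have h4 := h2 i
    omega

omit h2 in
lemma down_up (j : ℕ) (v : Lv p j) (h2 : ∀ j, 2 * p j ≤ p (j + 1)) : down p j (up p j v) = v := by
  obtain ⟨a, b⟩ := up_val p h2 j v
  unfold down
  rw [a, b]
  ext <;> simp

omit h2 in
lemma up_down (i : ℕ) (v : Lv p (i + 1)) (h : IsLow p (i + 1) v) : up p i (down p i v) = v := by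
  obtain ⟨a, b⟩ := down_val p i v h
  unfold up
  rw [a, b]
  ext <;> simp

lemma th_invol : Function.Involutive (th p) := by
  intro x
  obtain ⟨j, v⟩ := x
  by_cases hg : IsGo p j v
  · have e1 : th p ⟨j, v⟩ = ⟨j + 1, up p j v⟩ := by
      unfold th; rw [if_pos hg]
    rw [e1]
    unfold th
    rw [if_neg (up_not_go p h2 j v)]
    unfold thDown
    simp only []
    rw [if_pos (up_low p h2 j v hg), down_up p j v h2]
  · cases j with
    | zero =>
      have e1 : th p ⟨0, v⟩ = ⟨0, v⟩ := by
        unfold th; rw [if_neg hg]; rfl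
      rw [e1, e1]
    | succ i =>
      by_cases hl : IsLow p (i + 1) v
      · have e1 : th p ⟨i + 1, v⟩ = ⟨i, down p i v⟩ := by
          unfold th; rw [if_neg hg]; unfold thDown; simp only []; rw [if_pos hl]
        rw [e1]
        unfold th
        rw [if_pos (down_go p i v hl)]
        simp only []
        rw [up_down p i v hl]
      · have e1 : th p ⟨i + 1, v⟩ = ⟨i + 1, v⟩ := by
          unfold th; rw [if_neg hg]; unfold thDown; simp only []; rw [if_neg hl]
        rw [e1, e1]

omit h2 in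
lemma th_level (x : V p) : (th p x).1 ≤ x.1 + 1 := by
  obtain ⟨j, v⟩ := x
  unfold th
  split_ifs
  · exact le_rfl
  · cases j with
    | zero => exact Nat.zero_le _
    | succ i =>
      unfold thDown
      simp only []
      split_ifs
      · simp only []; omega
      · simp only []; omega

/-- `θ` as a permutation -/
def thPerm : Equiv.Perm (V p) := (th_invol p h2).toPerm

/-- the action of the generators on the fibre -/
def sV : Gen → Equiv.Perm (V p)
  | Gen.T1 => Equiv.sigmaCongrRight (lT1 p)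
  | Gen.T2 => Equiv.sigmaCongrRight (lT2 p)
  | Gen.e1 => Equiv.sigmaCongrRight (le1 p)
  | Gen.e2 => Equiv.sigmaCongrRight (le2 p)
  | Gen.t => thPerm p h2

end Theta

end Crest.Agent.R115.B
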