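import Crest.Agent.R115.Tau

/-!
Plan B for row 115, part (c): the test functions `H_{g,σ}`, and the kernels `q`, `a` with their
`ℓ¹` estimates, from a `tau` on the weighted space built on a local homomorphism.
-/

set_option autoImplicit false

open Finset

namespace Crest.Agent.R115.B

/-- A local homomorphism `psi` from a group `G` to permutations of `V`, with a cut-off `chi`. -/
structure LocHom (G V ι : Type) [Group G] where
  /-- the generators in the group -/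
  g : ι → G
  /-- the generators acting on the fibre -/
  s : ι → Equiv.Perm V
  /-- the local homomorphism -/
  psi : G → Equiv.Perm V
  /-- the cut-off -/
  chi : G → ℝ
  /-- the radius -/
  r : ℝ
  hr : 1 ≤ r
  chi_one : chi 1 = 1
  chi_nonneg : ∀ h, 0 ≤ chi h
  chi_le_one : ∀ h, chi h ≤ 1
  chi_left : ∀ i h, |chi (g i * h) - chi h| ≤ 1 / r
  chi_right : ∀ i h, |chi (h * g i) - chi h| ≤ 1 / r
  psi_left : ∀ i h, (chi h ≠ 0 ∨ chi (g i * h) ≠ 0) → psi (g i * h) = s i * psi h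
  psi_right : ∀ i h, (chi h ≠ 0 ∨ chi (h * g i) ≠ 0) → psi (h * g i) = psi h * s i

/-- the points -/
abbrev Pt (G V : Type) : Type := Option (G ⊕ (G × V))

/-- terminals -/
def term {G V : Type} (g : G) : Pt G V := some (Sum.inl g)

/-- points over the fibre -/
def om {G V : Type} (g : G) (v : V) : Pt G V := some (Sum.inr (g, v))

namespace LocHom

variable {G V ι : Type} [Group G] (Λ : LocHom G V ι)

/-- edges -/
def Edge (x y : Pt G V) : Prop :=
  ∃ i g v, (x = om g v ∧ y = om (Λ.g i * g) (Λ.s i v)) ∨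
    (y = om g v ∧ x = om (Λ.g i * g) (Λ.s i v))

/-- legs -/
def Leg (x y : Pt G V) : Prop :=
  ∃ (g : G) (v : V), (x = om g v ∧ y = term g) ∨ (y = om g v ∧ x = term g)

lemma edge_symm {x y : Pt G V} (h : Λ.Edge x y) : Λ.Edge y x := by
  obtain ⟨i, g, v, h | h⟩ := h
  · exact ⟨i, g, v, Or.inr h⟩
  · exact ⟨i, g, v, Or.inl h⟩

omit [Group G] in
lemma leg_symm {x y : Pt G V} (h : Leg x y) : Leg y x := by
  obtain ⟨g, v, h | h⟩ := h
  · exact ⟨g, v, Or.inr h⟩
  · exact ⟨g, v, Or.inl h⟩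

open Classical in
/-- the weight -/
noncomputable def w (l : ℝ) (x y : Pt G V) : ℝ :=
  if x = y then 0 else if Λ.Edge x y then 1 else if Leg x y then l else 2 * Λ.r

lemma r_pos : 0 < Λ.r := lt_of_lt_of_le one_pos Λ.hr

lemma isWeight {l : ℝ} (hl : 1 ≤ l) (hlr : l ≤ Λ.r) : IsWeight (Λ.w l) (2 * Λ.r) where
  symm x y := by
    classical
    unfold w
    exact if_congr ⟨Eq.symm, Eq.symm⟩ rfl
      (if_congr ⟨Λ.edge_symm, Λ.edge_symm⟩ rfl (if_congr ⟨leg_symm, leg_symm⟩ rfl rfl))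
  nonneg x y := by
    have := Λ.hr
    unfold w
    split_ifs <;> linarith
  one_le x y hxy := by
    have := Λ.hr
    unfold w
    rw [if_neg hxy]
    split_ifs <;> linarith
  le x y := by
    have := Λ.hr
    unfold w
    split_ifs <;> linarith

lemma w_leg (l : ℝ) (g : G) (v : V) : Λ.w l (om g v) (term g) = l := by
  unfold w
  have h1 : (om g v : Pt G V) ≠ term g := by
    intro h
    simp [om, term] at h
  have h2 : ¬ Λ.Edge (om g v) (term g) := by
    rintro ⟨i, g', v', ⟨-, h⟩ | ⟨h, -⟩⟩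
    · simp [om, term] at h
    · simp [om, term] at h
  rw [if_neg h1, if_neg h2, if_pos ⟨g, v, Or.inl ⟨rfl, rfl⟩⟩]

lemma w_edge_le (l : ℝ) (i : ι) (g : G) (v : V) :
    Λ.w l (om (Λ.g i * g) (Λ.s i v)) (om g v) ≤ 1 := by
  unfold w
  split_ifs with h1 h2 h3
  · norm_num
  · exact le_rfl
  · exact absurd ⟨i, g, v, Or.inr ⟨rfl, rfl⟩⟩ h2
  · exact absurd ⟨i, g, v, Or.inr ⟨rfl, rfl⟩⟩ h2

/-- Lipschitz criterion -/
lemma wlip_of {l L : ℝ} {f : Pt G V → ℝ}
    (he : ∀ i g v, |f (om (Λ.g i * g) (Λ.s i v)) - f (om g v)| ≤ L)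
    (hleg : ∀ g v, |f (om g v) - f (term g)| ≤ L * l)
    (hall : ∀ x y, |f x - f y| ≤ L * (2 * Λ.r)) : WLip (Λ.w l) L f := by
  intro x y
  unfold w
  split_ifs with h1 h2 h3
  · subst h1; simp
  · obtain ⟨i, g, v, ⟨rfl, rfl⟩ | ⟨rfl, rfl⟩⟩ := h2
    · rw [abs_sub_comm, mul_one]; exact he i g v
    · rw [mul_one]; exact he i g v
  · obtain ⟨g, v, ⟨rfl, rfl⟩ | ⟨rfl, rfl⟩⟩ := h3
    · exact hleg g v
    · rw [abs_sub_comm]; exact hleg g v
  · exact hall x y

/-- the test functions -/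
noncomputable def H (g : G) (σ : V → ℝ) : Pt G V → ℝ
  | none => 0
  | some (Sum.inl _) => 0
  | some (Sum.inr x) => Λ.chi (x.1 * g⁻¹) * σ ((Λ.psi (x.1 * g⁻¹))⁻¹ x.2)

@[simp] lemma H_none (g : G) (σ : V → ℝ) : Λ.H g σ none = 0 := rfl
@[simp] lemma H_term (g g' : G) (σ : V → ℝ) : Λ.H g σ (term g') = 0 := rfl
lemma H_om (g g' : G) (u : V) (σ : V → ℝ) :
    Λ.H g σ (om g' u) = Λ.chi (g' * g⁻¹) * σ ((Λ.psi (g' * g⁻¹))⁻¹ u) := rfl

lemma abs_chi_le (h : G) : |Λ.chi h| ≤ 1 := by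
  rw [abs_of_nonneg (Λ.chi_nonneg h)]; exact Λ.chi_le_one h

lemma abs_H_le (g : G) {σ : V → ℝ} (hσ : ∀ u, |σ u| ≤ 1) (x : Pt G V) : |Λ.H g σ x| ≤ 1 := by
  match x with
  | none => simp
  | some (Sum.inl g') => change |(0:ℝ)| ≤ 1; simp
  | some (Sum.inr (g', u)) =>
    change |Λ.chi (g' * g⁻¹) * σ ((Λ.psi (g' * g⁻¹))⁻¹ u)| ≤ 1
    rw [abs_mul]
    have h1 := Λ.abs_chi_le (g' * g⁻¹)
    have h2 := hσ ((Λ.psi (g' * g⁻¹))⁻¹ u)
    calc _ ≤ (1:ℝ) * 1 := mul_le_mul h1 h2 (abs_nonneg _) zero_le_one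
      _ = 1 := one_mul 1

/-- along edges `H` changes by at most `1/r` -/
lemma H_edge (g : G) {σ : V → ℝ} (hσ : ∀ u, |σ u| ≤ 1) (i : ι) (g' : G) (u : V) :
    |Λ.H g σ (om (Λ.g i * g') (Λ.s i u)) - Λ.H g σ (om g' u)| ≤ 1 / Λ.r := by
  rw [H_om, H_om, mul_assoc]
  set h := g' * g⁻¹ with hh
  by_cases h0 : Λ.chi h = 0 ∧ Λ.chi (Λ.g i * h) = 0
  · rw [h0.1, h0.2]
    simp only [zero_mul, sub_zero, abs_zero]
    exact div_nonneg zero_le_one Λ.r_pos.le
  · have h1 : Λ.chi h ≠ 0 ∨ Λ.chi (Λ.g i * h) ≠ 0 := by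
      by_contra hcon
      push Not at hcon
      exact h0 hcon
    have h3 : (Λ.s i)⁻¹ (Λ.s i u) = u := by simp
    rw [Λ.psi_left i h h1, mul_inv_rev, Equiv.Perm.mul_apply, h3, ← sub_mul, abs_mul]
    calc _ ≤ (1 / Λ.r) * 1 := mul_le_mul (Λ.chi_left i h) (hσ _) (abs_nonneg _)
          (div_nonneg zero_le_one Λ.r_pos.le)
      _ = _ := mul_one _

lemma H_wlip {l : ℝ} (hl : 1 ≤ l) (hlr : l ≤ Λ.r) (g : G) {σ : V → ℝ} (hσ : ∀ u, |σ u| ≤ 1) :
    WLip (Λ.w l) (1 / l) (Λ.H g σ) := by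
  have hl0 : 0 < l := by linarith
  apply Λ.wlip_of
  · intro i g' u
    exact (Λ.H_edge g hσ i g' u).trans (one_div_le_one_div_of_le hl0 hlr)
  · intro g' v
    rw [H_term, sub_zero]
    rw [one_div_mul_cancel hl0.ne']
    exact Λ.abs_H_le g hσ _
  · intro x y
    have h1 := abs_le.mp (Λ.abs_H_le g hσ x)
    have h2 := abs_le.mp (Λ.abs_H_le g hσ y)
    have h3 : (2:ℝ) ≤ 1 / l * (2 * Λ.r) := by
      rw [one_div, ← div_eq_inv_mul, le_div_iff₀ hl0]
      nlinarith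
    rw [abs_le]
    constructor <;> linarith [h1.1, h1.2, h2.1, h2.2]

/-- the difference of two translated test functions -/
noncomputable def Hd (i : ι) (g : G) (σ : V → ℝ) (x : Pt G V) : ℝ :=
  Λ.H (Λ.g i * g) (fun u => σ ((Λ.s i)⁻¹ u)) x - Λ.H g σ x

lemma abs_Hd_le (i : ι) (g : G) {σ : V → ℝ} (hσ : ∀ u, |σ u| ≤ 1) (x : Pt G V) :
    |Λ.Hd i g σ x| ≤ 1 / Λ.r := by
  have hr0 : (0:ℝ) ≤ 1 / Λ.r := div_nonneg zero_le_one Λ.r_pos.le
  match x with
  | none => simpa [Hd] using hr0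
  | some (Sum.inl g') =>
    have : Λ.Hd i g σ (some (Sum.inl g')) = 0 := by
      change (0:ℝ) - 0 = 0; simp
    rw [this, abs_zero]; exact hr0
  | some (Sum.inr (g', u)) =>
    change |Λ.H (Λ.g i * g) (fun u => σ ((Λ.s i)⁻¹ u)) (om g' u) - Λ.H g σ (om g' u)| ≤ 1 / Λ.r
    rw [H_om, H_om]
    set h := g' * (Λ.g i * g)⁻¹ with hh
    have hg : g' * g⁻¹ = h * Λ.g i := by rw [hh]; group
    rw [hg]
    by_cases h0 : Λ.chi h = 0 ∧ Λ.chi (h * Λ.g i) = 0
    · rw [h0.1, h0.2]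
      simpa using hr0
    · have h1 : Λ.chi h ≠ 0 ∨ Λ.chi (h * Λ.g i) ≠ 0 := by
        by_contra hcon
        push Not at hcon
        exact h0 hcon
      rw [Λ.psi_right i h h1, mul_inv_rev, Equiv.Perm.mul_apply, ← sub_mul, abs_mul, abs_sub_comm]
      calc _ ≤ (1 / Λ.r) * 1 := mul_le_mul (Λ.chi_right i h) (hσ _) (abs_nonneg _) hr0
        _ = _ := mul_one _

lemma Hd_wlip {l : ℝ} (hl : 1 ≤ l) (i : ι) (g : G) {σ : V → ℝ} (hσ : ∀ u, |σ u| ≤ 1) :
    WLip (Λ.w l) (2 / Λ.r) (Λ.Hd i g σ) := by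
  have hr := Λ.hr
  have hr0 := Λ.r_pos
  have hi : (0:ℝ) ≤ 1 / Λ.r := by positivity
  have e2 : 2 / Λ.r = 1 / Λ.r + 1 / Λ.r := by ring
  apply Λ.wlip_of
  · intro j g' u
    have h1 := abs_le.mp (Λ.H_edge g hσ j g' u)
    have h2 := abs_le.mp (Λ.H_edge (Λ.g i * g) (σ := fun u => σ ((Λ.s i)⁻¹ u))
      (fun u => hσ _) j g' u)
    unfold Hd
    rw [e2, abs_le]
    constructor <;> linarith [h1.1, h1.2, h2.1, h2.2]
  · intro g' v
    have h0 : Λ.Hd i g σ (term g') = 0 := by unfold Hd; simp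
    rw [h0, sub_zero]
    refine (Λ.abs_Hd_le i g hσ _).trans ?_
    rw [e2]
    nlinarith
  · intro x y
    have h1 := abs_le.mp (Λ.abs_Hd_le i g hσ x)
    have h2 := abs_le.mp (Λ.abs_Hd_le i g hσ y)
    have h3 : 2 / Λ.r ≤ 2 / Λ.r * (2 * Λ.r) := by
      have : 0 ≤ 2 / Λ.r := by positivity
      nlinarith
    have h4 : |Λ.Hd i g σ x - Λ.Hd i g σ y| ≤ 2 / Λ.r := by
      rw [e2, abs_le]
      constructor <;> linarith [h1.1, h1.2, h2.1, h2.2]
    linarith

/-! ### The cut-off on the whole space -/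

/-- the global cut-off centred at `g` -/
noncomputable def Chi (g : G) : Pt G V → ℝ
  | none => 0
  | some (Sum.inl g') => Λ.chi (g' * g⁻¹)
  | some (Sum.inr x) => Λ.chi (x.1 * g⁻¹)

@[simp] lemma Chi_none (g : G) : Λ.Chi g none = 0 := rfl
lemma Chi_term (g g' : G) : Λ.Chi g (term g') = Λ.chi (g' * g⁻¹) := rfl
lemma Chi_om (g g' : G) (v : V) : Λ.Chi g (om g' v) = Λ.chi (g' * g⁻¹) := rfl

lemma Chi_mem (g : G) (x : Pt G V) : 0 ≤ Λ.Chi g x ∧ Λ.Chi g x ≤ 1 := by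
  match x with
  | none => exact ⟨le_rfl, zero_le_one⟩
  | some (Sum.inl g') => exact ⟨Λ.chi_nonneg _, Λ.chi_le_one _⟩
  | some (Sum.inr (g', u)) => exact ⟨Λ.chi_nonneg _, Λ.chi_le_one _⟩

lemma Chi_wlip {l : ℝ} (hl : 1 ≤ l) (g : G) : WLip (Λ.w l) (1 / Λ.r) (Λ.Chi g) := by
  have hr := Λ.hr
  have hr0 := Λ.r_pos
  have hi : (0:ℝ) ≤ 1 / Λ.r := by positivity
  apply Λ.wlip_of
  · intro i g' v
    rw [Chi_om, Chi_om, mul_assoc]
    exact Λ.chi_left i _
  · intro g' v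
    rw [Chi_om, Chi_term, sub_self, abs_zero]
    positivity
  · intro x y
    have h1 := Λ.Chi_mem g x
    have h2 := Λ.Chi_mem g y
    have h3 : 1 / Λ.r * (2 * Λ.r) = 2 := by field_simp
    rw [h3, abs_le]
    constructor <;> linarith [h1.1, h1.2, h2.1, h2.2]

/-! ### Test functions on terminals -/

/-- a function on terminals -/
noncomputable def Tm (c : G → ℝ) : Pt G V → ℝ
  | some (Sum.inl g') => c g'
  | _ => 0

omit [Group G] in
@[simp] lemma Tm_none (c : G → ℝ) : Tm (V := V) c none = 0 := rfl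
omit [Group G] in
lemma Tm_term (c : G → ℝ) (g' : G) : Tm (V := V) c (term g') = c g' := rfl
omit [Group G] in
@[simp] lemma Tm_om (c : G → ℝ) (g' : G) (v : V) : Tm c (om g' v) = 0 := rfl

omit [Group G] in
lemma abs_Tm_le {c : G → ℝ} {C : ℝ} (hC : 0 ≤ C) (hc : ∀ b, |c b| ≤ C) (x : Pt G V) :
    |Tm c x| ≤ C := by
  match x with
  | none => simpa using hC
  | some (Sum.inl g') => exact hc g'
  | some (Sum.inr (g', u)) => change |(0:ℝ)| ≤ C; simpa using hC

lemma Tm_wlip {l : ℝ} {c : G → ℝ} {C : ℝ} (hl : 1 ≤ l) (hC : 0 ≤ C)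
    (hc : ∀ b, |c b| ≤ C) {L : ℝ} (h1 : C ≤ L * l) (h2 : 2 * C ≤ L * (2 * Λ.r)) :
    WLip (Λ.w l) L (Tm (V := V) c) := by
  have hL : 0 ≤ L := by
    by_contra hcon
    push Not at hcon
    nlinarith
  apply Λ.wlip_of
  · intro i g' v
    rw [Tm_om, Tm_om]; simpa using hL
  · intro g' v
    rw [Tm_om, zero_sub, abs_neg]
    exact (abs_Tm_le hC hc _).trans h1
  · intro x y
    have h3 := abs_le.mp (abs_Tm_le hC hc x)
    have h4 := abs_le.mp (abs_Tm_le hC hc y)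
    rw [abs_le]
    constructor <;> linarith [h3.1, h3.2, h4.1, h4.2]

end LocHom

/-! ### General consequences of `IsTau` -/

section Tau

variable {M : Type} {w : M → M → ℝ} {base : M} {A : Set M} {lam ε : ℝ} {tau : M → (M → ℝ) → ℝ}

lemma tau_zero (ht : IsTau w base A lam ε tau) (x : M) :
    tau x (fun _ => 0) = 0 := by
  have h0 : WLip w 0 (fun _ : M => (0:ℝ)) := by intro u v; simp
  have := ht.smul x (fun _ => 0) 0 0 le_rfl h0 rfl
  simpa using this

lemma tau_sub (ht : IsTau w base A lam ε tau) (x : M) {f g : M → ℝ} {L : ℝ} (hL : 0 ≤ L)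
    (hf : WLip w L f) (hg : WLip w L g) (f0 : f base = 0) (g0 : g base = 0) :
    tau x (fun u => f u - g u) = tau x f - tau x g := by
  have h1 : WLip w L (fun u => (-1) * g u) := by
    intro u v
    have := hg u v
    rw [abs_sub_comm] at this
    convert this using 2
    ring
  have h2 := ht.add x f (fun u => (-1) * g u) L hL hf h1 f0 (by simp [g0])
  have h3 := ht.smul x g L (-1) hL hg g0
  have h4 : (fun u => f u - g u) = (fun u => f u + (-1) * g u) := by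
    funext u; ring
  rw [h4, h2, h3]; ring

end Tau

namespace LocHom

variable {G V ι : Type} [Group G] (Λ : LocHom G V ι)

variable {l lam : ℝ} {tau : Pt G V → (Pt G V → ℝ) → ℝ}

/-- the setting: a `tau` for the weight, close to the identity on the terminals -/
abbrev TauAt (l lam : ℝ) (tau : Pt G V → (Pt G V → ℝ) → ℝ) : Prop :=
  IsTau (Λ.w l) none (Set.range (term (G := G) (V := V))) lam 1 tau

/-- anchoring -/
lemma anchor (ht : Λ.TauAt l lam tau) {f : Pt G V → ℝ} {L : ℝ} (hL : 0 ≤ L)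
    (hf : WLip (Λ.w l) L f) (f0 : f none = 0) (g : G) (v : V) :
    |tau (om g v) f - f (term g)| ≤ L * (lam * l + 1) := by
  have h1 := ht.lip f L hL hf f0 (om g v) (term g)
  have h2 := ht.anchor f L hL hf f0 (term g) ⟨g, rfl⟩
  rw [Λ.w_leg] at h1
  calc |tau (om g v) f - f (term g)|
      ≤ |tau (om g v) f - tau (term g) f| + |tau (term g) f - f (term g)| := abs_sub_le _ _ _
    _ ≤ lam * L * l + 1 * L := add_le_add h1 h2
    _ = L * (lam * l + 1) := by ring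

lemma edge_bound (ht : Λ.TauAt l lam tau) (hlam : 0 ≤ lam) {f : Pt G V → ℝ} {L : ℝ} (hL : 0 ≤ L)
    (hf : WLip (Λ.w l) L f) (f0 : f none = 0) (i : ι) (g : G) (v : V) :
    |tau (om (Λ.g i * g) (Λ.s i v)) f - tau (om g v) f| ≤ lam * L := by
  refine (ht.lip f L hL hf f0 _ _).trans ?_
  have h1 := Λ.w_edge_le l i g v
  calc lam * L * Λ.w l (om (Λ.g i * g) (Λ.s i v)) (om g v) ≤ lam * L * 1 :=
        mul_le_mul_of_nonneg_left h1 (by positivity)
    _ = lam * L := mul_one _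

/-! ### Linear expansions -/

open Classical in
/-- indicator of a point -/
noncomputable def ind {W : Type} (u : W) : W → ℝ := fun v => if v = u then 1 else 0

lemma abs_ind_le {W : Type} (u v : W) : |ind u v| ≤ 1 := by
  unfold ind; split_ifs <;> simp

lemma H_add (g : G) (σ ρ : V → ℝ) (x : Pt G V) :
    Λ.H g (fun u => σ u + ρ u) x = Λ.H g σ x + Λ.H g ρ x := by
  match x with
  | none => simp
  | some (Sum.inl g') => change (0:ℝ) = 0 + 0; simp
  | some (Sum.inr (g', u)) =>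
    change Λ.chi (g' * g⁻¹) * _ = Λ.chi (g' * g⁻¹) * _ + Λ.chi (g' * g⁻¹) * _
    ring

lemma H_smul (g : G) (c : ℝ) (σ : V → ℝ) (x : Pt G V) :
    Λ.H g (fun u => c * σ u) x = c * Λ.H g σ x := by
  match x with
  | none => simp
  | some (Sum.inl g') => change (0:ℝ) = c * 0; simp
  | some (Sum.inr (g', u)) =>
    change Λ.chi (g' * g⁻¹) * _ = c * (Λ.chi (g' * g⁻¹) * _)
    ring

lemma H_zero (g : G) (x : Pt G V) : Λ.H g (fun _ => 0) x = 0 := by
  have := Λ.H_smul g 0 (fun _ => 0) x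
  simpa using this

open Classical in
lemma tau_H_sum (ht : Λ.TauAt l lam tau) (hl : 1 ≤ l) (hlr : l ≤ Λ.r) (x : Pt G V) (g : G)
    (F : Finset V) {c : V → ℝ} (hc : ∀ u, |c u| ≤ 1) :
    tau x (Λ.H g (fun u => if u ∈ F then c u else 0)) = ∑ u ∈ F, c u * tau x (Λ.H g (ind u)) := by
  have hl0 : 0 < l := by linarith
  induction F using Finset.induction_on with
  | empty =>
    have h : Λ.H g (fun u => if u ∈ (∅ : Finset V) then c u else 0) = fun _ => 0 := by
      funext y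
      simp only [notMem_empty, if_false]
      exact Λ.H_zero g y
    rw [h, tau_zero ht, sum_empty]
  | insert a F ha ih =>
    have h : Λ.H g (fun u => if u ∈ insert a F then c u else 0) =
        fun y => c a * Λ.H g (ind a) y + Λ.H g (fun u => if u ∈ F then c u else 0) y := by
      funext y
      rw [← H_smul, ← H_add]
      congr 1
      funext u
      unfold ind
      by_cases hu : u = a
      · subst hu; simp [ha]
      · simp [hu]
    have h1 : WLip (Λ.w l) (1 / l) (Λ.H g (ind a)) := Λ.H_wlip hl hlr g (abs_ind_le a)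
    have h2 : WLip (Λ.w l) (1 / l) (fun y => c a * Λ.H g (ind a) y) := by
      intro u v
      rw [← mul_sub, abs_mul]
      have := h1 u v
      calc |c a| * |Λ.H g (ind a) u - Λ.H g (ind a) v|
          ≤ 1 * |Λ.H g (ind a) u - Λ.H g (ind a) v| :=
            mul_le_mul_of_nonneg_right (hc a) (abs_nonneg _)
        _ ≤ _ := by rw [one_mul]; exact this
    have h3 : WLip (Λ.w l) (1 / l) (Λ.H g (fun u => if u ∈ F then c u else 0)) := by
      apply Λ.H_wlip hl hlr g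
      intro u
      split_ifs
      · exact hc u
      · simp
    rw [h, ht.add x _ _ (1 / l) (by positivity) h2 h3 (by simp) (by simp), ih,
      ht.smul x _ (1 / l) (c a) (by positivity) h1 (by simp), sum_insert ha]

open Classical in
lemma tau_Tm_sum (ht : Λ.TauAt l lam tau) (hl : 1 ≤ l) (hlr : l ≤ Λ.r) (x : Pt G V)
    (F : Finset G) {c : G → ℝ} (hc : ∀ u, |c u| ≤ 1) :
    tau x (Tm (V := V) (fun u => if u ∈ F then c u else 0)) =
      ∑ u ∈ F, c u * tau x (Tm (V := V) (ind u)) := by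
  have hl0 : 0 < l := by linarith
  have hr := Λ.hr
  have hw : ∀ {c : G → ℝ}, (∀ u, |c u| ≤ 1) → WLip (Λ.w l) (1 / l) (Tm (V := V) c) := by
    intro c hc
    refine Λ.Tm_wlip hl zero_le_one hc ?_ ?_
    · rw [one_div_mul_cancel hl0.ne']
    · rw [one_div, ← div_eq_inv_mul, le_div_iff₀ hl0]
      linarith
  induction F using Finset.induction_on with
  | empty =>
    have h : Tm (V := V) (fun u => if u ∈ (∅ : Finset G) then c u else 0) = fun _ => 0 := by
      funext y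
      match y with
      | none => rfl
      | some (Sum.inl g') => change (if g' ∈ (∅ : Finset G) then c g' else 0) = 0; simp
      | some (Sum.inr (g', u)) => rfl
    rw [h, tau_zero ht, sum_empty]
  | insert a F ha ih =>
    have h : Tm (V := V) (fun u => if u ∈ insert a F then c u else 0) =
        fun y => c a * Tm (V := V) (ind a) y + Tm (V := V) (fun u => if u ∈ F then c u else 0) y := by
      funext y
      match y with
      | none => simp
      | some (Sum.inl u) =>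
        change (if u ∈ insert a F then c u else 0) = c a * ind a u + (if u ∈ F then c u else 0)
        unfold ind
        by_cases hu : u = a
        · subst hu; simp [ha]
        · simp [hu]
      | some (Sum.inr (g', u)) => change (0:ℝ) = c a * 0 + 0; simp
    have h1 : WLip (Λ.w l) (1 / l) (Tm (V := V) (ind a)) := hw (abs_ind_le a)
    have h2 : WLip (Λ.w l) (1 / l) (fun y => c a * Tm (V := V) (ind a) y) := by
      intro u v
      rw [← mul_sub, abs_mul]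
      have := h1 u v
      calc |c a| * |Tm (V := V) (ind a) u - Tm (V := V) (ind a) v|
          ≤ 1 * |Tm (V := V) (ind a) u - Tm (V := V) (ind a) v| :=
            mul_le_mul_of_nonneg_right (hc a) (abs_nonneg _)
        _ ≤ _ := by rw [one_mul]; exact this
    have h3 : WLip (Λ.w l) (1 / l) (Tm (V := V) (fun u => if u ∈ F then c u else 0)) := by
      apply hw
      intro u
      split_ifs
      · exact hc u
      · simp
    rw [h, ht.add x _ _ (1 / l) (by positivity) h2 h3 (by simp) (by simp), ih,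
      ht.smul x _ (1 / l) (c a) (by positivity) h1 (by simp), sum_insert ha]

/-- signs -/
lemma exists_signs {W : Type} (a : W → ℝ) :
    ∃ c : W → ℝ, (∀ u, |c u| ≤ 1) ∧ ∀ u, c u * a u = |a u| := by
  refine ⟨fun u => if 0 ≤ a u then 1 else -1, fun u => ?_, fun u => ?_⟩
  · dsimp only; split_ifs <;> simp
  · dsimp only
    split_ifs with h
    · rw [one_mul, abs_of_nonneg h]
    · rw [abs_of_neg (not_le.mp h)]; ring

/-! ### The kernels -/

/-- the kernel on the fibre -/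
noncomputable def q (tau : Pt G V → (Pt G V → ℝ) → ℝ) (g : G) (v u : V) : ℝ :=
  tau (om g v) (Λ.H g (ind u))

/-- the kernel on the terminals -/
noncomputable def a (tau : Pt G V → (Pt G V → ℝ) → ℝ) (g : G) (v : V) (b : G) : ℝ :=
  Λ.chi (b * g⁻¹) * tau (om g v) (Tm (V := V) (ind b))

theorem sum_q_le (ht : Λ.TauAt l lam tau) (hl : 1 ≤ l) (hlr : l ≤ Λ.r) (g : G) (v : V)
    (F : Finset V) : ∑ u ∈ F, |Λ.q tau g v u| ≤ lam + 1 := by
  classical
  have hl0 : 0 < l := by linarith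
  obtain ⟨c, hc, hca⟩ := exists_signs (Λ.q tau g v)
  have h1 := Λ.tau_H_sum ht hl hlr (om g v) g F hc
  have h2 : ∑ u ∈ F, |Λ.q tau g v u| =
      tau (om g v) (Λ.H g (fun u => if u ∈ F then c u else 0)) := by
    rw [h1]
    exact sum_congr rfl fun u _ => (hca u).symm
  have hσ : ∀ u, |(fun u => if u ∈ F then c u else 0) u| ≤ 1 := by
    intro u
    dsimp only
    split_ifs
    · exact hc u
    · simp
  have h3 := Λ.anchor ht (L := 1 / l) (by positivity) (Λ.H_wlip hl hlr g hσ) (by simp) g v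
  rw [H_term, sub_zero] at h3
  rw [h2]
  refine (le_abs_self _).trans (h3.trans ?_)
  have h4 : 1 / l * (lam * l + 1) = lam + 1 / l := by field_simp
  have h5 : 1 / l ≤ 1 := by rw [div_le_one hl0]; exact hl
  linarith

/-- the error along edges -/
noncomputable def err (l lam : ℝ) : ℝ := lam / l + 2 * (lam * l + 1) / Λ.r

theorem sum_q_diff (ht : Λ.TauAt l lam tau) (hlam : 0 ≤ lam) (hl : 1 ≤ l) (hlr : l ≤ Λ.r) (i : ι)
    (g : G) (v : V) (F : Finset V) :
    ∑ u ∈ F, |Λ.q tau (Λ.g i * g) (Λ.s i v) (Λ.s i u) - Λ.q tau g v u| ≤ Λ.err l lam := by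
  classical
  have hl0 : 0 < l := by linarith
  obtain ⟨c, hc, hca⟩ := exists_signs
    (fun u => Λ.q tau (Λ.g i * g) (Λ.s i v) (Λ.s i u) - Λ.q tau g v u)
  set σ : V → ℝ := fun u => if u ∈ F then c u else 0 with hσdef
  have hσ : ∀ u, |σ u| ≤ 1 := by
    intro u
    rw [hσdef]
    dsimp only
    split_ifs
    · exact hc u
    · simp
  have hσ' : ∀ u, |(fun u => σ ((Λ.s i)⁻¹ u)) u| ≤ 1 := fun u => hσ _
  have h1 : tau (om g v) (Λ.H g σ) = ∑ u ∈ F, c u * Λ.q tau g v u :=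
    Λ.tau_H_sum ht hl hlr (om g v) g F hc
  have h2 : tau (om (Λ.g i * g) (Λ.s i v)) (Λ.H (Λ.g i * g) (fun u => σ ((Λ.s i)⁻¹ u))) =
      ∑ u ∈ F, c u * Λ.q tau (Λ.g i * g) (Λ.s i v) (Λ.s i u) := by
    have h3 := Λ.tau_H_sum ht hl hlr (om (Λ.g i * g) (Λ.s i v)) (Λ.g i * g)
      (F.map (Λ.s i).toEmbedding) (c := fun u => c ((Λ.s i)⁻¹ u)) (fun u => hc _)
    rw [sum_map] at h3
    have h4 : (fun u => σ ((Λ.s i)⁻¹ u)) =
        fun u => if u ∈ F.map (Λ.s i).toEmbedding then c ((Λ.s i)⁻¹ u) else 0 := by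
      funext u
      rw [hσdef]
      dsimp only
      refine if_congr ?_ rfl rfl
      rw [mem_map_equiv]
      rfl
    rw [h4, h3]
    refine sum_congr rfl fun u _ => ?_
    have h5 : (Λ.s i)⁻¹ ((Λ.s i).toEmbedding u) = u := by simp
    rw [h5]
    rfl
  have h6 : ∑ u ∈ F, |Λ.q tau (Λ.g i * g) (Λ.s i v) (Λ.s i u) - Λ.q tau g v u| =
      tau (om (Λ.g i * g) (Λ.s i v)) (Λ.H (Λ.g i * g) (fun u => σ ((Λ.s i)⁻¹ u))) -
        tau (om g v) (Λ.H g σ) := by
    rw [h1, h2, ← sum_sub_distrib]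
    refine sum_congr rfl fun u _ => ?_
    rw [← mul_sub]
    exact (hca u).symm
  have h7 := tau_sub ht (om (Λ.g i * g) (Λ.s i v)) (L := 1 / l) (by positivity)
    (Λ.H_wlip hl hlr (Λ.g i * g) hσ') (Λ.H_wlip hl hlr g hσ) (by simp) (by simp)
  have h8 := Λ.anchor ht (L := 2 / Λ.r) (by have := Λ.r_pos; positivity)
    (Λ.Hd_wlip hl i g hσ) (by simp [Hd]) (Λ.g i * g) (Λ.s i v)
  have h9 : Λ.Hd i g σ (term (Λ.g i * g)) = 0 := by simp [Hd]
  rw [h9, sub_zero] at h8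
  have h10 : tau (om (Λ.g i * g) (Λ.s i v)) (Λ.Hd i g σ) =
    tau (om (Λ.g i * g) (Λ.s i v)) (Λ.H (Λ.g i * g) (fun u => σ ((Λ.s i)⁻¹ u))) -
      tau (om (Λ.g i * g) (Λ.s i v)) (Λ.H g σ) := h7
  have h11 := Λ.edge_bound ht hlam (L := 1 / l) (by positivity) (Λ.H_wlip hl hlr g hσ)
    (by simp) i g v
  rw [h6]
  unfold err
  have h12 := abs_le.mp h8
  have h13 := abs_le.mp h11
  have h14 : 2 / Λ.r * (lam * l + 1) = 2 * (lam * l + 1) / Λ.r := by ring
  have h15 : lam * (1 / l) = lam / l := by ring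
  rw [h14] at h12
  rw [h15] at h13
  rw [h10] at h12
  linarith [h12.1, h12.2, h13.1, h13.2]

lemma Tm_wlip' {c : G → ℝ} (hl : 1 ≤ l) (hlr : l ≤ Λ.r) (hc : ∀ u, |c u| ≤ 1) :
    WLip (Λ.w l) (1 / l) (Tm (V := V) c) := by
  have hl0 : 0 < l := by linarith
  refine Λ.Tm_wlip hl zero_le_one hc ?_ ?_
  · rw [one_div_mul_cancel hl0.ne']
  · rw [one_div, ← div_eq_inv_mul, le_div_iff₀ hl0]
    linarith

variable [Fintype G]

lemma sum_c_a (ht : Λ.TauAt l lam tau) (hl : 1 ≤ l) (hlr : l ≤ Λ.r) {c : G → ℝ}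
    (hc : ∀ u, |c u| ≤ 1) (g : G) (v : V) :
    ∑ b, c b * Λ.a tau g v b = tau (om g v) (Tm (V := V) (fun b => c b * Λ.chi (b * g⁻¹))) := by
  classical
  have h1 := Λ.tau_Tm_sum ht hl hlr (om g v) univ (c := fun b => c b * Λ.chi (b * g⁻¹)) (by
    intro u
    rw [abs_mul]
    calc _ ≤ (1:ℝ) * 1 := mul_le_mul (hc u) (Λ.abs_chi_le _) (abs_nonneg _) zero_le_one
      _ = 1 := one_mul 1)
  simp only [mem_univ, if_true] at h1
  rw [h1]
  refine sum_congr rfl fun b _ => ?_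
  unfold a
  ring

theorem sum_a_diff (ht : Λ.TauAt l lam tau) (hlam : 0 ≤ lam) (hl : 1 ≤ l) (hlr : l ≤ Λ.r) (i : ι)
    (g : G) (v : V) :
    ∑ b, |Λ.a tau (Λ.g i * g) (Λ.s i v) b - Λ.a tau g v b| ≤ Λ.err l lam := by
  classical
  have hl0 : 0 < l := by linarith
  have hr := Λ.hr
  have hr0 := Λ.r_pos
  obtain ⟨c, hc, hca⟩ := exists_signs
    (fun b => Λ.a tau (Λ.g i * g) (Λ.s i v) b - Λ.a tau g v b)
  set f1 : G → ℝ := fun b => c b * Λ.chi (b * g⁻¹) with hf1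
  set f2 : G → ℝ := fun b => c b * Λ.chi (b * (Λ.g i * g)⁻¹) with hf2
  have b1 : ∀ u, |f1 u| ≤ 1 := by
    intro u
    rw [hf1]
    dsimp only
    rw [abs_mul]
    calc _ ≤ (1:ℝ) * 1 := mul_le_mul (hc u) (Λ.abs_chi_le _) (abs_nonneg _) zero_le_one
      _ = 1 := one_mul 1
  have b2 : ∀ u, |f2 u| ≤ 1 := by
    intro u
    rw [hf2]
    dsimp only
    rw [abs_mul]
    calc _ ≤ (1:ℝ) * 1 := mul_le_mul (hc u) (Λ.abs_chi_le _) (abs_nonneg _) zero_le_one
      _ = 1 := one_mul 1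
  have b3 : ∀ u, |f2 u - f1 u| ≤ 1 / Λ.r := by
    intro u
    rw [hf1, hf2]
    dsimp only
    rw [← mul_sub, abs_mul]
    have hg : u * g⁻¹ = (u * (Λ.g i * g)⁻¹) * Λ.g i := by group
    have h := Λ.chi_right i (u * (Λ.g i * g)⁻¹)
    rw [hg, abs_sub_comm]
    calc _ ≤ (1:ℝ) * (1 / Λ.r) := mul_le_mul (hc u) h (abs_nonneg _) zero_le_one
      _ = 1 / Λ.r := one_mul _
  have h1 := Λ.sum_c_a ht hl hlr hc g v
  have h2 := Λ.sum_c_a ht hl hlr hc (Λ.g i * g) (Λ.s i v)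
  have h6 : ∑ b, |Λ.a tau (Λ.g i * g) (Λ.s i v) b - Λ.a tau g v b| =
      tau (om (Λ.g i * g) (Λ.s i v)) (Tm (V := V) f2) - tau (om g v) (Tm (V := V) f1) := by
    rw [← h1, ← h2, ← sum_sub_distrib]
    refine sum_congr rfl fun u _ => ?_
    rw [← mul_sub]
    exact (hca u).symm
  have h7 := tau_sub ht (om (Λ.g i * g) (Λ.s i v)) (L := 1 / l) (by positivity)
    (Λ.Tm_wlip' hl hlr b2) (Λ.Tm_wlip' hl hlr b1) (by simp) (by simp)
  have h7' : (fun u => Tm (V := V) f2 u - Tm (V := V) f1 u) =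
      Tm (V := V) (fun b => f2 b - f1 b) := by
    funext y
    match y with
    | none => simp
    | some (Sum.inl g') => rfl
    | some (Sum.inr (g', u)) => change (0:ℝ) - 0 = 0; simp
  rw [h7'] at h7
  have h8w : WLip (Λ.w l) (1 / Λ.r) (Tm (V := V) (fun b => f2 b - f1 b)) := by
    refine Λ.Tm_wlip hl (by positivity) b3 ?_ ?_
    · exact le_mul_of_one_le_right (by positivity) hl
    · rw [one_div]
      have : Λ.r⁻¹ * (2 * Λ.r) = 2 := by field_simp
      rw [this]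
      have : Λ.r⁻¹ ≤ 1 := inv_le_one_of_one_le₀ hr
      linarith
  have h8 := Λ.anchor ht (L := 1 / Λ.r) (by positivity) h8w (by simp) (Λ.g i * g) (Λ.s i v)
  have h9 := b3 (Λ.g i * g)
  rw [Tm_term] at h8
  have h11 := Λ.edge_bound ht hlam (L := 1 / l) (by positivity) (Λ.Tm_wlip' hl hlr b1)
    (by simp) i g v
  rw [h6]
  unfold err
  have h12 := abs_le.mp h8
  have h13 := abs_le.mp h11
  have h16 := abs_le.mp h9
  have h14 : 1 / Λ.r * (lam * l + 1) + 1 / Λ.r ≤ 2 * (lam * l + 1) / Λ.r := by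
    rw [one_div, ← div_eq_inv_mul, inv_eq_one_div, ← add_div]
    apply div_le_div_of_nonneg_right _ hr0.le
    nlinarith
  have h15 : lam * (1 / l) = lam / l := by ring
  rw [h15] at h13
  rw [h7] at h12
  linarith [h12.1, h12.2, h13.1, h13.2, h16.1, h16.2]

omit [Fintype G] in
lemma a_ne_zero {g : G} {v : V} {b : G} (h : Λ.a tau g v b ≠ 0) : Λ.chi (b * g⁻¹) ≠ 0 := by
  intro h0
  apply h
  unfold a
  rw [h0, zero_mul]

/-- a bound for the mass on terminals -/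
theorem sum_a_le (ht : Λ.TauAt l lam tau) (hl : 1 ≤ l) (hlr : l ≤ Λ.r) (g : G) (v : V) :
    ∑ b, |Λ.a tau g v b| ≤ lam + 2 := by
  classical
  have hl0 : 0 < l := by linarith
  obtain ⟨c, hc, hca⟩ := exists_signs (Λ.a tau g v)
  have h1 := Λ.sum_c_a ht hl hlr hc g v
  have h2 : ∑ b, |Λ.a tau g v b| = tau (om g v) (Tm (V := V) (fun b => c b * Λ.chi (b * g⁻¹))) := by
    rw [← h1]
    exact sum_congr rfl fun u _ => (hca u).symm
  have b1 : ∀ u, |(fun b => c b * Λ.chi (b * g⁻¹)) u| ≤ 1 := by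
    intro u
    dsimp only
    rw [abs_mul]
    calc _ ≤ (1:ℝ) * 1 := mul_le_mul (hc u) (Λ.abs_chi_le _) (abs_nonneg _) zero_le_one
      _ = 1 := one_mul 1
  have h3 := Λ.anchor ht (L := 1 / l) (by positivity) (Λ.Tm_wlip' hl hlr b1) (by simp) g v
  rw [Tm_term] at h3
  have h4 : 1 / l * (lam * l + 1) = lam + 1 / l := by field_simp
  have h5 : 1 / l ≤ 1 := by rw [div_le_one hl0]; exact hl
  have h6 := abs_le.mp (b1 g)
  have h7 := abs_le.mp h3
  rw [h2]
  dsimp only at h6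
  linarith [h6.1, h6.2, h7.1, h7.2]

/-- total mass -/
theorem total (ht : Λ.TauAt l lam tau) (hl : 1 ≤ l) (hlr : l ≤ Λ.r) {η : ℝ} (hη : 0 < η) :
    ∃ F0 : Finset V, ∀ F : Finset V, F0 ⊆ F → ∀ (g : G) (v : V),
      1 - (lam * l + 1) / Λ.r - η ≤ ∑ u ∈ F, Λ.q tau g v u + ∑ b, Λ.a tau g v b := by
  classical
  have hl0 : 0 < l := by linarith
  have hr := Λ.hr
  have hr0 := Λ.r_pos
  obtain ⟨S, hS⟩ := ht.tail η hη
  refine ⟨S.biUnion (fun x => match x with
    | some (Sum.inr y) => univ.image (fun h : G => (Λ.psi h)⁻¹ y.2)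
    | _ => ∅), fun F hF g v => ?_⟩
  have hone : ∀ u : V, |(fun _ => (1:ℝ)) u| ≤ 1 := fun u => by simp
  -- split the cut-off
  set σ : V → ℝ := fun u => if u ∈ F then 1 else 0 with hσdef
  set ρ : V → ℝ := fun u => if u ∈ F then 0 else 1 with hρdef
  have hσ : ∀ u, |σ u| ≤ 1 := by
    intro u; rw [hσdef]; dsimp only; split_ifs <;> simp
  have hρ : ∀ u, |ρ u| ≤ 1 := by
    intro u; rw [hρdef]; dsimp only; split_ifs <;> simp
  have c1 : ∀ b : G, |(fun b => Λ.chi (b * g⁻¹)) b| ≤ 1 := fun b => Λ.abs_chi_le _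
  have e1 : Λ.Chi g = fun y => (Λ.H g σ y + Λ.H g ρ y) + Tm (V := V) (fun b => Λ.chi (b * g⁻¹)) y := by
    funext y
    match y with
    | none => simp
    | some (Sum.inl g') =>
      change Λ.chi (g' * g⁻¹) = 0 + 0 + Λ.chi (g' * g⁻¹)
      simp
    | some (Sum.inr (g', u)) =>
      change Λ.chi (g' * g⁻¹) = (Λ.chi (g' * g⁻¹) * σ ((Λ.psi (g' * g⁻¹))⁻¹ u) +
        Λ.chi (g' * g⁻¹) * ρ ((Λ.psi (g' * g⁻¹))⁻¹ u)) + 0
      have : σ ((Λ.psi (g' * g⁻¹))⁻¹ u) + ρ ((Λ.psi (g' * g⁻¹))⁻¹ u) = 1 := by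
        rw [hσdef, hρdef]; dsimp only; split_ifs <;> simp
      rw [← mul_add, this]; ring
  have w1 := Λ.H_wlip hl hlr g hσ
  have w2 := Λ.H_wlip hl hlr g hρ
  have w3 := Λ.Tm_wlip' hl hlr c1
  have w12 : WLip (Λ.w l) (2 / l) (fun y => Λ.H g σ y + Λ.H g ρ y) := by
    intro x y
    have h1 := w1 x y
    have h2 := w2 x y
    have h3 : (Λ.H g σ x + Λ.H g ρ x) - (Λ.H g σ y + Λ.H g ρ y) =
      (Λ.H g σ x - Λ.H g σ y) + (Λ.H g ρ x - Λ.H g ρ y) := by ring
    rw [h3]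
    refine (abs_add_le _ _).trans ((add_le_add h1 h2).trans (le_of_eq ?_))
    ring
  have w3' : WLip (Λ.w l) (2 / l) (Tm (V := V) (fun b => Λ.chi (b * g⁻¹))) := by
    intro x y
    refine (w3 x y).trans ?_
    apply mul_le_mul_of_nonneg_right _ ((Λ.isWeight hl hlr).nonneg x y)
    apply div_le_div_of_nonneg_right _ hl0.le
    norm_num
  have t1 : tau (om g v) (Λ.Chi g) = (tau (om g v) (Λ.H g σ) + tau (om g v) (Λ.H g ρ)) +
      tau (om g v) (Tm (V := V) (fun b => Λ.chi (b * g⁻¹))) := by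
    rw [e1, ht.add (om g v) _ _ (2 / l) (by positivity) w12 w3' (by simp) (by simp),
      ht.add (om g v) _ _ (1 / l) (by positivity) w1 w2 (by simp) (by simp)]
  have t2 : tau (om g v) (Λ.H g σ) = ∑ u ∈ F, Λ.q tau g v u := by
    have := Λ.tau_H_sum ht hl hlr (om g v) g F hone
    rw [hσdef, this]
    refine sum_congr rfl fun u _ => ?_
    rw [one_mul]; rfl
  have t3 : tau (om g v) (Tm (V := V) (fun b => Λ.chi (b * g⁻¹))) = ∑ b, Λ.a tau g v b := by
    have := Λ.sum_c_a ht hl hlr (c := fun _ => (1:ℝ)) (fun b => by simp) g v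
    simp only [one_mul] at this
    exact this.symm
  have t4 : |tau (om g v) (Λ.H g ρ)| ≤ η * (1 / l) := by
    refine hS _ (1 / l) (by positivity) w2 (by simp) ?_ _
    intro y hy
    match y, hy with
    | none, _ => simp
    | some (Sum.inl g'), _ => rfl
    | some (Sum.inr (g', u)), hy =>
      change Λ.chi (g' * g⁻¹) * ρ ((Λ.psi (g' * g⁻¹))⁻¹ u) = 0
      have hmem : (Λ.psi (g' * g⁻¹))⁻¹ u ∈ F := by
        apply hF
        rw [mem_biUnion]
        exact ⟨_, hy, mem_image.mpr ⟨g' * g⁻¹, mem_univ _, rfl⟩⟩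
      rw [hρdef]
      dsimp only
      rw [if_pos hmem, mul_zero]
  have t5 : η * (1 / l) ≤ η := by
    have : 1 / l ≤ 1 := by rw [div_le_one hl0]; exact hl
    nlinarith
  have t6 := Λ.anchor ht (L := 1 / Λ.r) (by positivity) (Λ.Chi_wlip hl g) (by simp) g v
  rw [Chi_term, mul_inv_cancel, Λ.chi_one, t1, t2, t3] at t6
  have t7 := abs_le.mp t6
  have t8 := abs_le.mp t4
  have t9 : 1 / Λ.r * (lam * l + 1) = (lam * l + 1) / Λ.r := by ring
  rw [t9] at t7
  linarith [t7.1, t7.2, t8.1, t8.2]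

end LocHom

end Crest.Agent.R115.B
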