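import Crest.Agent.R115.Reduction
import Crest.Agent.R115.Endgame
import Crest.Agent.R115.Concrete
import Crest.Agent.R115.Primes
import Crest.Agent.R115.B.Hfun

/-!
Plan B for row 115: final assembly.
-/

set_option autoImplicit false

open Finset

namespace Crest.Agent.R115.B

open Dyn

/-- the local homomorphism of a levelled system -/
noncomputable def ofSys {V ι : Type} (S : Sys V ι) (n r : ℕ) (hr : 1 ≤ r)
    (hf : S.Faithful n (2 * (r + 1))) : LocHom (S.G n) V ι where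
  g i := S.tr n i
  s := S.s
  psi := S.psi n (r + 1)
  chi := S.chi n r
  r := r
  hr := by exact_mod_cast hr
  chi_one := S.chi_one n r hr
  chi_nonneg := S.chi_nonneg n r
  chi_le_one := S.chi_le_one n r
  chi_left i h := by
    have := S.abs_chi_mul_left n r (i, true) h
    simpa [Sys.letG] using this
  chi_right i h := by
    have := S.abs_chi_mul_right n r (i, true) h
    simpa [Sys.letG] using this
  psi_left i h hh := by
    have hb : h ∈ S.ball n r := by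
      rcases hh with hh | hh
      · exact S.mem_ball_of_chi_ne_zero' hh
      · obtain ⟨k, hk, hk'⟩ := S.mem_ball_of_chi_ne_zero hh
        have h1 := S.mul_mem_ball (Sys.flip (i, true)) hk'
        rw [Sys.letG_flip] at h1
        have h2 : S.letG n (i, true) = S.tr n i := by simp [Sys.letG]
        rw [h2, inv_mul_cancel_left] at h1
        exact S.ball_mono (by omega) h1
    have h1 := S.psi_mul_left hf (i, true) hb
    simpa [Sys.letG, Sys.letV] using h1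
  psi_right i h hh := by
    have hb : h ∈ S.ball n r := by
      rcases hh with hh | hh
      · exact S.mem_ball_of_chi_ne_zero' hh
      · obtain ⟨k, hk, hk'⟩ := S.mem_ball_of_chi_ne_zero hh
        have h1 := S.mem_ball_mul (Sys.flip (i, true)) hk'
        rw [Sys.letG_flip] at h1
        have h2 : S.letG n (i, true) = S.tr n i := by simp [Sys.letG]
        rw [h2, mul_inv_cancel_right] at h1
        exact S.ball_mono (by omega) h1
    have h1 := S.psi_mul_right hf (i, true) hb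
    simpa [Sys.letG, Sys.letV] using h1

lemma inv_mem_ball {V ι : Type} (S : Sys V ι) {n k : ℕ} {h : S.G n} (hh : h ∈ S.ball n k) :
    h⁻¹ ∈ S.ball n k := by
  obtain ⟨w, hw, rfl⟩ := hh
  exact ⟨Sys.winv w, by simpa using hw, by rw [Sys.wordG_winv]⟩

/-- the space for `lam = l` -/
theorem exists_space (l : ℕ) : ∃ (M : Type) (_ : Countable M) (w : M → M → ℝ) (D : ℝ)
      (_ : IsWeight w D) (base : M) (A : Finset M) (ε : ℝ), 0 < ε ∧
      ∀ tau : M → (M → ℝ) → ℝ, ¬ IsTau w base (A : Set M) l ε tau := by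
  classical
  -- parameters
  obtain ⟨ℓ, hℓ⟩ : ∃ ℓ : ℕ, ℓ = 100000 * (l + 1) := ⟨_, rfl⟩
  obtain ⟨r, hr⟩ : ∃ r : ℕ, r = 200000 * (l + 1) * ℓ := ⟨_, rfl⟩
  obtain ⟨K, hK⟩ : ∃ K : ℕ, K = 200 * (l + 1) := ⟨_, rfl⟩
  have hℓ1 : 1 ≤ ℓ := by omega
  have hℓr : ℓ ≤ r := by
    rw [hr]; exact Nat.le_mul_of_pos_left _ (by omega)
  have hr1 : 1 ≤ r := hℓ1.trans hℓr
  obtain ⟨p, hpp, hpK, hpmono, hp5⟩ := exists_primes K
  have hfact : ∀ j, Fact (p j).Prime := fun j => ⟨hpp j⟩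
  have h2 : ∀ j, 2 * p j ≤ p (j + 1) := fun j =>
    (Nat.mul_le_mul_right _ (by omega)).trans (hpK j)
  set S := sys p h2 with hS
  obtain ⟨n0, hn0⟩ := S.exists_faithful (2 * (r + 1))
  obtain ⟨n, hn⟩ : ∃ n : ℕ, n = max n0 (2 * 11 ^ r) := ⟨_, rfl⟩
  have hf : S.Faithful n (2 * (r + 1)) := hn0 n (by rw [hn]; exact le_max_left _ _)
  set Λ := ofSys S n r hr1 hf with hΛ
  have hΛr : Λ.r = (r : ℝ) := rfl
  have hl1 : (1 : ℝ) ≤ (ℓ : ℝ) := by exact_mod_cast hℓ1
  have hlr : (ℓ : ℝ) ≤ Λ.r := by rw [hΛr]; exact_mod_cast hℓr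
  have hcount : Countable (S.G n) := Finite.to_countable
  refine ⟨Pt (S.G n) (V p), inferInstance, Λ.w ℓ, 2 * Λ.r, Λ.isWeight hl1 hlr, none,
    univ.image (term (G := S.G n) (V := V p)), 1, one_pos, ?_⟩
  intro tau htau
  have ht : Λ.TauAt (ℓ : ℝ) (l : ℝ) tau := by
    have : ((univ.image (term (G := S.G n) (V := V p)) : Finset _) : Set (Pt (S.G n) (V p))) =
        Set.range (term (G := S.G n) (V := V p)) := by
      rw [coe_image, coe_univ, Set.image_univ]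
    rw [this] at htau
    exact htau
  have hlam : (0 : ℝ) ≤ (l : ℝ) := Nat.cast_nonneg l
  -- numerics
  have hℓ' : (ℓ : ℝ) = 100000 * ((l : ℝ) + 1) := by rw [hℓ]; push_cast; ring
  have hr' : (r : ℝ) = 200000 * ((l : ℝ) + 1) * ℓ := by rw [hr]; push_cast; ring
  have hℓ0 : (0 : ℝ) < ℓ := by linarith
  have hl10 : (0 : ℝ) < (l : ℝ) + 1 := by linarith
  have hr0 : (0 : ℝ) < r := by rw [hr']; positivity
  have hlamℓ : (l : ℝ) * ℓ + 1 ≤ ((l : ℝ) + 1) * ℓ := by nlinarith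
  have hmain : ((l : ℝ) * ℓ + 1) / r ≤ 1 / 200000 := by
    rw [div_le_div_iff₀ hr0 (by norm_num), hr']
    nlinarith
  have herr : Λ.err (ℓ : ℝ) (l : ℝ) ≤ 1 / 50000 := by
    unfold LocHom.err
    rw [hΛr]
    have e1 : (l : ℝ) / ℓ ≤ 1 / 100000 := by
      rw [div_le_div_iff₀ hℓ0 (by norm_num), hℓ']
      linarith
    have e2 : 2 * ((l : ℝ) * ℓ + 1) / r = 2 * (((l : ℝ) * ℓ + 1) / r) := by ring
    rw [e2]
    linarith
  obtain ⟨F0, hF0⟩ := Λ.total ht hl1 hlr (η := 1 / 8) (by norm_num)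
  obtain ⟨n1, hn1⟩ : ∃ n1 : ℕ, n1 = F0.sup (fun u => u.1) := ⟨_, rfl⟩
  obtain ⟨m, hm⟩ : ∃ m : ℕ, m = n1 + 2 := ⟨_, rfl⟩
  have hsub : F0 ⊆ (range (n1 + 1)).sigma (fun j => (univ : Finset (Lv p j))) := by
    intro u hu
    rw [mem_sigma]
    refine ⟨mem_range.mpr ?_, mem_univ _⟩
    have := Finset.le_sup (f := fun u : V p => u.1) hu
    rw [← hn1] at this
    exact Nat.lt_succ_of_le this
  obtain ⟨N, hN⟩ : ∃ N : ℕ, N = period p (max n m) := ⟨_, rfl⟩
  have hN0 : N ≠ 0 := by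
    rw [hN]; exact period_ne_zero p (fun j => (hpp j).ne_zero) _
  have : NeZero N := ⟨hN0⟩
  have hdn : ∀ j ≤ n, p j ∣ N := fun j hj => by
    rw [hN]; exact dvd_period p (hj.trans (le_max_left _ _))
  have hdm : ∀ j ≤ m, p j ∣ N := fun j hj => by
    rw [hN]; exact dvd_period p (hj.trans (le_max_right _ _))
  obtain ⟨FB, hFB, hFBcard⟩ := S.card_ball_le n r
  have hcard5 : Fintype.card Gen = 5 := rfl
  rw [hcard5] at hFBcard
  have hFB2 : 2 * FB.card ≤ p n ^ 2 := by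
    have h1 : 2 * 11 ^ r ≤ n := by rw [hn]; exact le_max_right _ _
    have h3 := hp5 n
    have h4 : n ≤ p n := by omega
    have h5 : p n ≤ p n ^ 2 := by
      rw [sq]; exact Nat.le_mul_of_pos_left _ (hpp n).pos
    have h6 : FB.card ≤ 11 ^ r := hFBcard
    omega
  have hkap : (1 / (K : ℝ) ^ 2) * ((l : ℝ) + 1) ≤ 1 / 200 := by
    have hK' : (K : ℝ) = 200 * ((l : ℝ) + 1) := by rw [hK]; push_cast; ring
    rw [hK', one_div, ← div_eq_inv_mul, div_le_div_iff₀ (by positivity) (by norm_num)]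
    nlinarith
  refine Endgame.endgame (G := S.G n) (A := S.G n) (gG h2 n Gen.T1) (gG h2 n Gen.T2)
    (gG h2 n Gen.e1) (gG h2 n Gen.e2) (gG h2 n Gen.t)
    (rel_e1e2 h2 n) (rel_T1e1 h2 n) (rel_T1e2 h2 n) (rel_T2e2 h2 n) (rel_T2e1 h2 n)
    p hpmono.injective N (e1_pow_eq_one h2 n N hdn) (e2_pow_eq_one h2 n N hdn)
    n1 m (by omega) hdm (stay p m) (go p) (low p) (iota p)
    (fun j _ => (iota_injOn h2 j).injOn) (fun j _ u hu => iota_mem_low h2 hu)
    (card_stay_ge h2 m) (fun j _ => card_go_ge (fun j => (hpp j).two_le) j)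
    (1 / (K : ℝ) ^ 2) ?_
    (fun g v j u => Λ.q tau g ⟨m, v⟩ ⟨j, u⟩) (fun g v b => Λ.a tau g ⟨m, v⟩ b)
    (l : ℝ) (Λ.err (ℓ : ℝ) (l : ℝ)) ?_ ?_ ?_ ?_ ?_ ?_ ?_ ?_ ?_ ?_ ?_ ?_ herr hkap
  · -- low
    intro j _
    have h1 := card_low_le' hpK (j + 1)
    have h3 : (K : ℝ) ^ 2 * ((low p (j + 1)).card : ℝ) ≤ (p (j + 1) : ℝ) ^ 2 := by
      exact_mod_cast h1
    have hK0 : (0 : ℝ) < (K : ℝ) ^ 2 := by
      have : 0 < K := by omega
      positivity
    rw [one_div, ← div_eq_inv_mul, le_div_iff₀ hK0]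
    linarith
  · intro g v
    have := Λ.sum_q_le ht hl1 hlr g ⟨m, v⟩
      ((range (n1 + 2)).sigma (fun j => (univ : Finset (Lv p j))))
    rw [sum_sigma] at this
    exact this
  · intro g v
    have := Λ.sum_q_diff ht hlam hl1 hlr Gen.T1 g ⟨m, v⟩
      ((range (n1 + 2)).sigma (fun j => (univ : Finset (Lv p j))))
    rw [sum_sigma] at this
    exact this
  · intro g v
    have := Λ.sum_q_diff ht hlam hl1 hlr Gen.T2 g ⟨m, v⟩
      ((range (n1 + 2)).sigma (fun j => (univ : Finset (Lv p j))))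
    rw [sum_sigma] at this
    exact this
  · intro g v
    have := Λ.sum_q_diff ht hlam hl1 hlr Gen.e1 g ⟨m, v⟩
      ((range (n1 + 2)).sigma (fun j => (univ : Finset (Lv p j))))
    rw [sum_sigma] at this
    exact this
  · intro g v
    have := Λ.sum_q_diff ht hlam hl1 hlr Gen.e2 g ⟨m, v⟩
      ((range (n1 + 2)).sigma (fun j => (univ : Finset (Lv p j))))
    rw [sum_sigma] at this
    exact this
  · intro g v hv
    have := Λ.sum_q_diff ht hlam hl1 hlr Gen.t g ⟨m, v⟩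
      ((range (n1 + 1)).sigma (fun j => go p j))
    rw [sum_sigma] at this
    refine le_trans (le_of_eq ?_) this
    refine sum_congr rfl fun j _ => sum_congr rfl fun u hu => ?_
    have e1 : Λ.s Gen.t ⟨m, v⟩ = ⟨m, v⟩ := theta_stay h2 hv
    have e2 : Λ.s Gen.t ⟨j, u⟩ = ⟨j + 1, iota p j u⟩ := theta_go h2 hu
    rw [e1, e2]
    rfl
  · intro g v
    exact Λ.sum_a_diff ht hlam hl1 hlr Gen.T1 g ⟨m, v⟩
  · intro g v
    exact Λ.sum_a_diff ht hlam hl1 hlr Gen.T2 g ⟨m, v⟩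
  · intro g v
    exact Λ.sum_a_diff ht hlam hl1 hlr Gen.e1 g ⟨m, v⟩
  · intro g v
    exact Λ.sum_a_diff ht hlam hl1 hlr Gen.e2 g ⟨m, v⟩
  · intro b g v
    refine le_trans (Nat.mul_le_mul_left 2 (card_le_card ?_))
      (orbit_bound h2 n N (hdn n le_rfl) (g * b⁻¹) FB hFB2)
    intro ik hik
    rw [mem_filter] at hik ⊢
    refine ⟨hik.1, ?_⟩
    rw [hFB]
    have h3 := Λ.a_ne_zero hik.2
    have h4 : (b * (gG h2 n Gen.e1 ^ ik.1 * gG h2 n Gen.e2 ^ ik.2 * g)⁻¹) ∈ S.ball n r :=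
      S.mem_ball_of_chi_ne_zero' h3
    have h5 := inv_mem_ball S h4
    rw [mul_inv_rev, inv_inv, mul_assoc] at h5
    exact h5
  · intro g v
    have := hF0 _ hsub g ⟨m, v⟩
    rw [sum_sigma] at this
    refine le_trans ?_ this
    rw [hΛr]
    linarith

theorem main : ∃ P : Crest.AnalysisR.PointedMetric, P.IsCountableSeparatedUnboundedNonproper ∧
    Crest.AnalysisR.HasAP P.FreeSpace ∧ ¬ Crest.AnalysisR.HasBAP P.FreeSpace :=
  reduction_weight exists_space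

end Crest.Agent.R115.B
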